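import Vale.Agent.P011.D4T.Defs
import Vale.Agent.P011.D4T.H67.KCf

/-!
The change of the quadratic field: the part with quaternions.
-/

namespace Vale.Agent.P011.D4T.H67

open Vale.Agent.P011.MPQ Vale.Agent.P011.D4 Vale.Agent.P011.D4.Oct Vale.Agent.P011.E6

section el

variable {F : Type} [Field F] {a b : Fˣ}

theorem mul_star_self' (x : Qt a b) : x * star x = (nrd x) • (1 : Qt a b) := by
  ext <;> simp [nrd] <;> ring

theorem star_mul_self' (x : Qt a b) : star x * x = (nrd x) • (1 : Qt a b) := by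
  ext <;> simp [nrd] <;> ring

/-- The element `x e₊ + y e₋`, `e± = (1 ± I / α) / 2`. -/
def el (I : Qt a b) (α x y : F) : Qt a b := ((x + y) / 2) • (1 : Qt a b) + ((x - y) / (2 * α)) • I

variable {I : Qt a b} {α : F}

theorem el_mul (h2 : (2 : F) ≠ 0) (hα : α ≠ 0) (hI : I * I = (α * α) • (1 : Qt a b))
    (x y x' y' : F) : el I α x y * el I α x' y' = el I α (x * x') (y * y') := by
  simp only [el, add_mul, mul_add, smul_mul_smul_comm, mul_one, one_mul, hI, smul_smul]
  have h1 : ∀ s t u v : F, s • (1 : Qt a b) + t • I + (u • I + v • (1 : Qt a b)) =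
      (s + v) • (1 : Qt a b) + (t + u) • I := by
    intro s t u v
    rw [add_smul, add_smul]
    abel
  have h3 : ∀ s t u v : F, s • (1 : Qt a b) + t • I + (u • I + v • (1 : Qt a b)) =
      (s + v) • (1 : Qt a b) + (t + u) • I := h1
  have h4 : ∀ s t u v : F, s • (1 : Qt a b) + u • I + (t • I + v • (1 : Qt a b)) =
      (s + v) • (1 : Qt a b) + (u + t) • I := by
    intro s t u v
    rw [add_smul, add_smul]
    abel
  rw [h4]
  congr 2
  · field_simp
    ring
  · field_simp
    ring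

theorem el_smul (t x y : F) : t • el I α x y = el I α (t * x) (t * y) := by
  simp only [el, smul_add, smul_smul]
  congr 2 <;> ring

theorem el_one (h2 : (2 : F) ≠ 0) : el I α 1 1 = 1 := by
  simp only [el, sub_self, zero_div, zero_smul, add_zero]
  rw [show (1 + 1 : F) / 2 = 1 by rw [one_add_one_eq_two]; exact div_self h2, one_smul]

theorem el_I (h2 : (2 : F) ≠ 0) (hα : α ≠ 0) : el I α α (-α) = I := by
  simp only [el]
  rw [show (α + -α) / 2 = 0 by ring, show (α - -α) / (2 * α) = 1 by field_simp; ring, zero_smul,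
    zero_add, one_smul]

theorem nrd_el (h2 : (2 : F) ≠ 0) (hα : α ≠ 0) (hI0 : I.re = 0) (hI : nrd I = -(α * α))
    (x y : F) : nrd (el I α x y) = x * y := by
  have e : nrd (el I α x y) = ((x + y) / 2) ^ 2 + ((x - y) / (2 * α)) ^ 2 * nrd I := by
    simp only [el, nrd, QuaternionAlgebra.re_add, QuaternionAlgebra.imI_add,
      QuaternionAlgebra.imJ_add, QuaternionAlgebra.imK_add, QuaternionAlgebra.re_smul,
      QuaternionAlgebra.imI_smul, QuaternionAlgebra.imJ_smul, QuaternionAlgebra.imK_smul,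
      QuaternionAlgebra.re_one, QuaternionAlgebra.imI_one, QuaternionAlgebra.imJ_one,
      QuaternionAlgebra.imK_one, smul_eq_mul, hI0]
    ring
  rw [e, hI]
  field_simp
  ring

theorem el_left (h2 : (2 : F) ≠ 0) (hα : α ≠ 0) (hI0 : I.re = 0)
    (hI : I * I = (α * α) • (1 : Qt a b)) {x y x' y' : F} (h : el I α x y = el I α x' y') :
    x = x' := by
  have e1 : ∀ x y : F, (el I α x y).re = (x + y) / 2 := by
    intro x y
    simp [el, hI0]
  have e2 : ∀ x y : F, (el I α x y * I).re = (x - y) * α / 2 := by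
    intro x y
    simp only [el, add_mul, smul_mul_assoc, one_mul, hI, QuaternionAlgebra.re_add,
      QuaternionAlgebra.re_smul, QuaternionAlgebra.re_one, hI0, smul_eq_mul]
    field_simp
    ring
  have h1 : (x + y) / 2 = (x' + y') / 2 := by rw [← e1, ← e1, h]
  have h3 : (x - y) * α / 2 = (x' - y') * α / 2 := by rw [← e2, ← e2, h]
  field_simp at h1 h3
  apply mul_left_cancel₀ h2
  linear_combination h1 + h3

/-- An element which commutes with `I` is of the form `el`. -/
theorem comm_el (h2 : (2 : F) ≠ 0) (hα : α ≠ 0) (hI0 : I.re = 0) (hI : nrd I = -(α * α))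
    {x : Qt a b} (h : x * I = I * x) :
    x = el I α (x.re + α * ((x * I).re / (α * α))) (x.re - α * ((x * I).re / (α * α))) := by
  have h1 := congrArg QuaternionAlgebra.imI h
  have h3 := congrArg QuaternionAlgebra.imJ h
  have h4 := congrArg QuaternionAlgebra.imK h
  simp only [QuaternionAlgebra.imI_mul, QuaternionAlgebra.imJ_mul, QuaternionAlgebra.imK_mul,
    hI0] at h1 h3 h4
  have ha := a.ne_zero
  have hb := b.ne_zero
  have e : x = (x.re) • (1 : Qt a b) + ((x * I).re / (α * α)) • I := by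
    simp only [nrd, hI0] at hI
    have e1 : x.imJ * I.imK = x.imK * I.imJ := by
      apply mul_left_cancel₀ (mul_ne_zero h2 hb)
      linear_combination -h1
    have e2 : x.imI * I.imK = x.imK * I.imI := by
      apply mul_left_cancel₀ (mul_ne_zero h2 ha)
      linear_combination h3
    have e3 : x.imI * I.imJ = x.imJ * I.imI := by
      apply mul_left_cancel₀ h2
      linear_combination h4
    ext
    · simp [hI0]
    · simp only [QuaternionAlgebra.imI_add, QuaternionAlgebra.imI_smul, QuaternionAlgebra.imI_one,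
        smul_eq_mul, QuaternionAlgebra.re_mul, hI0]
      field_simp
      linear_combination x.imI * hI + (b : F) * I.imJ * e3 - (a : F) * b * I.imK * e2
    · simp only [QuaternionAlgebra.imJ_add, QuaternionAlgebra.imJ_smul, QuaternionAlgebra.imJ_one,
        smul_eq_mul, QuaternionAlgebra.re_mul, hI0]
      field_simp
      linear_combination x.imJ * hI - (a : F) * I.imI * e3 - (a : F) * b * I.imK * e1
    · simp only [QuaternionAlgebra.imK_add, QuaternionAlgebra.imK_smul, QuaternionAlgebra.imK_one,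
        smul_eq_mul, QuaternionAlgebra.re_mul, hI0]
      field_simp
      linear_combination x.imK * hI - (a : F) * I.imI * e2 - (b : F) * I.imJ * e1
  have e' : ∀ s t : F, s • (1 : Qt a b) + t • I = el I α (s + α * t) (s - α * t) := by
    intro s t
    simp only [el]
    rw [show (s + α * t + (s - α * t)) / 2 = s by field_simp; ring,
      show (s + α * t - (s - α * t)) / (2 * α) = t by field_simp; ring]
  rw [← e']
  exact e

end el

section kca

variable {k O : Type} [Field k] [Field O] [Algebra k O] {ρ σ τ : O ≃ₐ[k] O} {a b : kˣ}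

theorem qmap_el {s : O ≃ₐ[k] O} {I : Qt (up O a) (up O b)} (hI : qmap s I = I) {α : O}
    (hα : s α = α) (x y : O) : qmap s (el I α x y) = el I α (s x) (s y) := by
  simp only [el, qmap_add, qmap_smul, qmap_one, hI, map_div₀, map_add, map_sub, map_mul, hα,
    map_ofNat]

theorem qmap_el' {s : O ≃ₐ[k] O} {I : Qt (up O a) (up O b)} (hI : qmap s I = I) {α : O}
    (hα : s α = -α) (x y : O) : qmap s (el I α x y) = el I α (s y) (s x) := by
  simp only [el, qmap_add, qmap_smul, qmap_one, hI, map_div₀, map_add, map_sub, map_mul, hα,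
    map_ofNat]
  congr 2
  · rw [add_comm]
  · rw [mul_neg, div_neg, ← neg_div, neg_sub]

theorem star_of_re {F : Type} [Field F] {a b : Fˣ} {x : Qt a b} (h : x.re = 0) : star x = -x := by
  ext <;> simp [h]

theorem cancel_left {F : Type} [Field F] {a b : Fˣ} {x y z : Qt a b} (h : nrd x ≠ 0)
    (e : x * y = x * z) : y = z := by
  have h1 : star x * (x * y) = star x * (x * z) := by rw [e]
  rw [← mul_assoc, ← mul_assoc, star_mul_self', smul_mul_assoc, smul_mul_assoc, one_mul,
    one_mul] at h1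
  exact smul_right_injective _ h h1

/-- The quaternion `X` of the change of field. -/
theorem kca (h3 : ∀ x, ρ (ρ (ρ x)) = x) (hσ : ∀ x, σ (σ x) = x) (hτ : ∀ x, τ (τ x) = x)
    (hσρ : ∀ x, σ (ρ x) = ρ (σ x)) (hτρ : ∀ x, τ (ρ x) = ρ (τ x)) (hστ : ∀ x, σ (τ x) = τ (σ x))
    (h2 : (2 : O) ≠ 0) {α : O} (hα0 : α ≠ 0) (hσα : σ α = -α) (hρα : ρ α = α) (hτα : τ α = α)
    (hα2 : α * α = algebraMap k O a)
    {β : O} (hβ0 : β ≠ 0) (hσβ : σ β = β) (hτβ : τ β = -β)
    {q : O} (hq : N3 ρ q = 1) (hσq : σ q = q) (hτq : τ q = q)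
    {i1 j1 : Qt a b} (hi0 : i1.re = 0) (hi : (algebraMap k O (nrd i1)) = -(β * β))
    (hj : nrd j1 ≠ 0) (hij : j1 * i1 = -(i1 * j1))
    {p : Qt (up O a) (up O b)} (hp0 : p.re = 0) (hp : nrd p = -(β * β)) (hτp : qmap τ p = p)
    (hσp : mq a b α q * qmap σ p = p * mq a b α q) :
    ∃ (X : Qt (up O a) (up O b)) (lam v s : O), nrd X ≠ 0 ∧ v ≠ 0 ∧ s ≠ 0 ∧ lam ≠ 0 ∧
      p * X = X * qup O i1 ∧ mq a b α q * qmap σ X = lam • X ∧
      qmap τ X = X * el (qup O i1) β (τ v) v⁻¹ ∧
      N3 ρ (v * τ v) = 1 ∧ σ (v * τ v) = v * τ v ∧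
      ρ s = s ∧ σ s = N3 ρ lam * s ∧ τ s * N3 ρ v = s ∧ lam * σ lam = q := by
  obtain ⟨I, hI⟩ : ∃ I : Qt (up O a) (up O b), I = qup O i1 := ⟨_, rfl⟩
  rw [← hI]
  have hI0 : I.re = 0 := by
    rw [hI]
    change algebraMap k O i1.re = 0
    rw [hi0, map_zero]
  have hnI : nrd I = -(β * β) := by
    rw [hI, ← hi]
    exact nrd_qup i1
  have hσI : qmap σ I = I := by rw [hI, qmap_qup]
  have hτI : qmap τ I = I := by rw [hI, qmap_qup]
  have hsI : star I = -I := star_of_re hI0
  have hsp : star p = -p := star_of_re hp0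
  have hII : I * I = (β * β) • (1 : Qt (up O a) (up O b)) := by
    have h := mul_star_self' I
    rw [hsI, mul_neg, hnI, neg_smul, neg_inj] at h
    exact h
  have hpp : p * p = (β * β) • (1 : Qt (up O a) (up O b)) := by
    have h := mul_star_self' p
    rw [hsp, mul_neg, hp, neg_smul, neg_inj] at h
    exact h
  have hββ : β * β ≠ 0 := mul_ne_zero hβ0 hβ0
  obtain ⟨m, hm⟩ : ∃ m : Qt (up O a) (up O b), m = mq a b α q := ⟨_, rfl⟩
  rw [← hm] at hσp ⊢
  have hq0 : q ≠ 0 := by
    rintro rfl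
    simp [N3] at hq
  have hτm : qmap τ m = m := by
    rw [hm]
    ext
    · change τ ((q + 1) / 2) = (q + 1) / 2
      rw [map_div₀, map_add, hτq, map_one, map_ofNat]
    · change τ ((q - 1) / (2 * α)) = (q - 1) / (2 * α)
      rw [map_div₀, map_sub, hτq, map_one, map_mul, map_ofNat, hτα]
    · exact map_zero τ
    · exact map_zero τ
  have hmm : m * qmap σ m = q • (1 : Qt (up O a) (up O b)) := by
    have e1 : (up O a : O) = α * α := by rw [hα2]; rfl
    rw [hm]
    ext
    · simp only [mq, qmap, QuaternionAlgebra.re_mul, QuaternionAlgebra.re_smul,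
        QuaternionAlgebra.re_one, smul_eq_mul, map_div₀, map_add, map_sub, map_mul, map_one,
        map_zero, map_ofNat, hσq, hσα, e1]
      field_simp
      ring
    · simp only [mq, qmap, QuaternionAlgebra.imI_mul, QuaternionAlgebra.imI_smul,
        QuaternionAlgebra.imI_one, smul_eq_mul, map_div₀, map_add, map_sub, map_mul, map_one,
        map_zero, map_ofNat, hσq, hσα, e1]
      field_simp
      ring
    · simp only [mq, qmap, QuaternionAlgebra.imJ_mul, QuaternionAlgebra.imJ_smul,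
        QuaternionAlgebra.imJ_one, smul_eq_mul, map_zero]
      ring
    · simp only [mq, qmap, QuaternionAlgebra.imK_mul, QuaternionAlgebra.imK_smul,
        QuaternionAlgebra.imK_one, smul_eq_mul, map_zero]
      ring
  -- the quaternion `X₀`
  obtain ⟨Y, hY, hX0⟩ : ∃ Y : Qt (up O a) (up O b), (qmap σ Y = Y ∧ qmap τ Y = Y) ∧
      nrd (p * Y + Y * I) ≠ 0 := by
    have hpar : nrd (p + I) + nrd (p - I) = 2 * nrd p + 2 * nrd I := by
      simp only [nrd, QuaternionAlgebra.re_add, QuaternionAlgebra.imI_add,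
        QuaternionAlgebra.imJ_add, QuaternionAlgebra.imK_add, QuaternionAlgebra.re_sub,
        QuaternionAlgebra.imI_sub, QuaternionAlgebra.imJ_sub, QuaternionAlgebra.imK_sub]
      ring
    by_cases h : nrd (p + I) = 0
    · refine ⟨qup O j1, ⟨by rw [qmap_qup], by rw [qmap_qup]⟩, ?_⟩
      have e1 : (qup O j1 : Qt (up O a) (up O b)) * I = -(I * qup O j1) := by
        rw [hI, ← qup_mul, hij, ← qup_mul]
        exact qup_neg _
      rw [e1, ← sub_eq_add_neg, ← sub_mul, nrd_mul]
      apply mul_ne_zero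
      · rw [h, hp, hnI, zero_add] at hpar
        rw [hpar]
        intro h5
        apply mul_ne_zero (mul_ne_zero h2 h2) hββ
        linear_combination -h5
      · rw [nrd_qup]
        exact (map_ne_zero _).mpr hj
    · refine ⟨1, ⟨by rw [qmap_one], by rw [qmap_one]⟩, ?_⟩
      rwa [mul_one, one_mul]
  obtain ⟨hY1, hY2⟩ := hY
  obtain ⟨X0, hX0d⟩ : ∃ X0, X0 = p * Y + Y * I := ⟨_, rfl⟩
  rw [← hX0d] at hX0
  have hpX0 : p * X0 = X0 * I := by
    rw [hX0d, mul_add, add_mul, ← mul_assoc, hpp, mul_assoc Y, hII, smul_mul_assoc, one_mul,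
      mul_smul_comm, mul_one, mul_assoc, add_comm]
  have hτX0 : qmap τ X0 = X0 := by
    rw [hX0d, qmap_add, qmap_mul, qmap_mul, hτp, hτI, hY2]
  obtain ⟨Z, hZ⟩ : ∃ Z, Z = m * qmap σ X0 := ⟨_, rfl⟩
  have hZ' : Z = p * m * Y + m * Y * I := by
    rw [hZ, hX0d, qmap_add, qmap_mul, qmap_mul, hσI, hY1, mul_add, ← mul_assoc, hσp, ← mul_assoc]
  have hpZ : p * Z = Z * I := by
    have e1 : p * (p * m * Y) = (β * β) • (m * Y) := by
      rw [← mul_assoc, ← mul_assoc, hpp, smul_mul_assoc, smul_mul_assoc, one_mul]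
    have e2 : m * Y * I * I = (β * β) • (m * Y) := by
      rw [mul_assoc, hII, mul_smul_comm, mul_one]
    have e3 : p * (m * Y * I) = p * m * Y * I := by
      rw [← mul_assoc, ← mul_assoc]
    rw [hZ', mul_add, add_mul, e1, e2, e3, add_comm]
  obtain ⟨l, hl⟩ : ∃ l, l = (nrd X0)⁻¹ • (star X0 * Z) := ⟨_, rfl⟩
  have hXl : X0 * l = Z := by
    rw [hl, mul_smul_comm, ← mul_assoc, mul_star_self', smul_mul_assoc, one_mul, smul_smul,
      inv_mul_cancel₀ hX0, one_smul]
  have hlI : l * I = I * l := by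
    apply cancel_left hX0
    rw [← mul_assoc, hXl, ← mul_assoc, ← hpX0, mul_assoc, hXl, hpZ]
  have hτl : qmap τ l = l := by
    apply cancel_left hX0
    have e1 : qmap τ (X0 * l) = qmap τ Z := by rw [hXl]
    rw [qmap_mul, hτX0] at e1
    rw [e1, hXl, hZ, qmap_mul, hτm]
    have e2 : qmap τ (qmap σ X0) = qmap σ (qmap τ X0) := by
      ext
      · exact (hστ _).symm
      · exact (hστ _).symm
      · exact (hστ _).symm
      · exact (hστ _).symm
    rw [e2, hτX0]
  have hll : l * qmap σ l = q • (1 : Qt (up O a) (up O b)) := by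
    apply cancel_left hX0
    have e1 : m * qmap σ Z = q • X0 := by
      have e2 : qmap σ (qmap σ X0) = X0 := by
        ext
        · exact hσ _
        · exact hσ _
        · exact hσ _
        · exact hσ _
      rw [hZ, qmap_mul, e2, ← mul_assoc, hmm, smul_mul_assoc, one_mul]
    have e3 : m * qmap σ Z = X0 * (l * qmap σ l) := by
      rw [← hXl, qmap_mul, ← mul_assoc, ← hZ, ← hXl, mul_assoc]
    rw [← e3, e1, mul_smul_comm, mul_one]
  obtain ⟨l0, hl0⟩ : ∃ l0, l0 = l.re := ⟨_, rfl⟩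
  obtain ⟨l1, hl1⟩ : ∃ l1, l1 = (l * I).re / (β * β) := ⟨_, rfl⟩
  have hτl0 : τ l0 = l0 := by
    rw [hl0]
    exact congrArg QuaternionAlgebra.re hτl
  have hτl1 : τ l1 = l1 := by
    have e1 : qmap τ (l * I) = l * I := by rw [qmap_mul, hτl, hτI]
    have e2 : τ (l * I).re = (l * I).re := congrArg QuaternionAlgebra.re e1
    rw [hl1, map_div₀, e2, map_mul, hτβ, neg_mul_neg]
  have hle := comm_el h2 hβ0 hI0 hnI hlI
  rw [← hl0, ← hl1] at hle
  obtain ⟨lam, hlam⟩ : ∃ lam, lam = l0 + β * l1 := ⟨_, rfl⟩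
  have hτlam : τ lam = l0 - β * l1 := by
    rw [hlam, map_add, map_mul, hτl0, hτl1, hτβ, neg_mul, sub_eq_add_neg]
  rw [← hlam, ← hτlam] at hle
  have hlamq : lam * σ lam = q := by
    rw [hle, qmap_el hσI hσβ, el_mul h2 hβ0 hII] at hll
    have e1 : q • (1 : Qt (up O a) (up O b)) = el I β q q := by
      rw [← el_one h2 (I := I) (α := β), el_smul, mul_one]
    rw [e1] at hll
    exact el_left h2 hβ0 hI0 hII hll
  have hlam0 : lam ≠ 0 := by
    rintro rfl
    rw [zero_mul] at hlamq
    exact hq0 hlamq.symm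
  obtain ⟨v, s, hv0, hs0, h5, h6, h7, h8, h9, h10⟩ :=
    exists_vs h3 hσ hτ hσρ hτρ hστ h2 hα0 hσα hρα hq hτq hlamq
  refine ⟨X0 * el I β 1 v, lam, v, s, ?_, hv0, hs0, hlam0, ?_, ?_, ?_, h6, h7, h8, h9, h10, hlamq⟩
  · rw [nrd_mul, nrd_el h2 hβ0 hI0 hnI, one_mul]
    exact mul_ne_zero hX0 hv0
  · rw [← mul_assoc, hpX0, mul_assoc, mul_assoc]
    congr 1
    have e1 : I = el I β β (-β) := (el_I h2 hβ0).symm
    have e2 : el I β β (-β) * el I β 1 v = el I β 1 v * el I β β (-β) := by
      rw [el_mul h2 hβ0 hII, el_mul h2 hβ0 hII, mul_comm β, mul_comm (-β)]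
    rwa [← e1] at e2
  · rw [qmap_mul, qmap_el hσI hσβ, ← mul_assoc, ← hZ, ← hXl, hle, mul_assoc,
      el_mul h2 hβ0 hII, map_one, mul_one, h5, ← mul_smul_comm, el_smul, mul_one]
  · rw [qmap_mul, hτX0, qmap_el' hτI hτβ, map_one, mul_assoc, el_mul h2 hβ0 hII, one_mul,
      mul_inv_cancel₀ hv0]

end kca

end Vale.Agent.P011.D4T.H67
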