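import Vale.Agent.P011.D4T.H67.KCq

/-!
The change of the quadratic field: the isomorphism of cyclic compositions over the big field.
-/

open Vale.Agent.P011.MPQ Vale.Agent.P011.D4 Vale.Agent.P011.D4.Oct Vale.Agent.P011.E6
  Vale.Agent.P011.D4.H24

namespace Vale.Agent.P011.D4T.H67

section uf

variable {k O : Type} [Field k] [Field O] [Algebra k O] {ρ σ τ : O ≃ₐ[k] O}
  {a b c a1 b1 c1 : kˣ} {I J X : Qt (up O a) (up O b)} {t : O}

theorem qmap_pq (s : O ≃ₐ[k] O) (hI : qmap s I = I) (hJ : qmap s J = J)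
    (x : Qt (up O a1) (up O b1)) : qmap s (pq I J x) = pq I J (qmap s x) := by
  simp only [pq, qmap_add, qmap_smul, qmap_mul, qmap_one, hI, hJ]
  rfl

/-- The map between octonions. -/
def uF (ρ : O ≃ₐ[k] O) (c : kˣ) (I J X : Qt (up O a) (up O b)) (t : O)
    (y : OctL O a1 b1 c1) : OctL O a b c :=
  ⟨X * pq I J y.fst * star (qmap ρ (qmap ρ X)), t • (pq I J y.snd * star (qmap ρ X))⟩

theorem fst_uF (y : OctL O a1 b1 c1) : (uF ρ c I J X t y).fst =
    X * pq I J y.fst * star (qmap ρ (qmap ρ X)) := rfl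

theorem snd_uF (y : OctL O a1 b1 c1) : (uF ρ c I J X t y).snd =
    t • (pq I J y.snd * star (qmap ρ X)) := rfl

theorem uF_add (x y : OctL O a1 b1 c1) : uF ρ c I J X t (x + y) =
    uF ρ c I J X t x + uF ρ c I J X t y := by
  ext1
  · simp only [fst_uF, fst_add, pq_add, mul_add, add_mul]
  · simp only [snd_uF, snd_add, pq_add, add_mul, smul_add]

theorem uF_smul (r : O) (x : OctL O a1 b1 c1) : uF ρ c I J X t (r • x) =
    r • uF ρ c I J X t x := by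
  ext1
  · simp only [fst_uF, fst_smul, pq_smul, mul_smul_comm, smul_mul_assoc]
  · simp only [snd_uF, snd_smul, pq_smul, smul_mul_assoc, smul_comm t r]

/-- The map between octonions, as a linear equivalence. -/
noncomputable def uE [NeZero (2 : O)] (ρ : O ≃ₐ[k] O) (c c1 : kˣ)
    (h : HP (up O a1) (up O b1) I J) (hX : nrd X ≠ 0) (ht : t ≠ 0) :
    OctL O a1 b1 c1 ≃ₗ[O] OctL O a b c where
  toFun := uF ρ c I J X t
  invFun y := ⟨h.pqE.symm (((nrd X)⁻¹ • star X) * y.fst *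
      star (qmap ρ (qmap ρ ((nrd X)⁻¹ • star X)))),
    t⁻¹ • h.pqE.symm (y.snd * star (qmap ρ ((nrd X)⁻¹ • star X)))⟩
  left_inv y := by
    have e1 : ((nrd X)⁻¹ • star X) * X = 1 := q_inv_mul hX
    have e2 : star (qmap ρ X) * star (qmap ρ ((nrd X)⁻¹ • star X)) = 1 := by
      rw [← star_mul, ← qmap_mul, e1, qmap_one, star_one]
    have e3 : star (qmap ρ (qmap ρ X)) * star (qmap ρ (qmap ρ ((nrd X)⁻¹ • star X))) = 1 := by
      rw [← star_mul, ← qmap_mul, ← qmap_mul, e1, qmap_one, qmap_one, star_one]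
    ext1
    · change h.pqE.symm (((nrd X)⁻¹ • star X) * (X * pq I J y.fst * star (qmap ρ (qmap ρ X))) *
        star (qmap ρ (qmap ρ ((nrd X)⁻¹ • star X)))) = y.fst
      rw [mul_assoc, mul_assoc, e3, mul_one, ← mul_assoc, e1, one_mul, LinearEquiv.symm_apply_eq]
      rfl
    · change t⁻¹ • h.pqE.symm ((t • (pq I J y.snd * star (qmap ρ X))) *
        star (qmap ρ ((nrd X)⁻¹ • star X))) = y.snd
      rw [smul_mul_assoc, mul_assoc, e2, mul_one, map_smul, smul_smul, inv_mul_cancel₀ ht,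
        one_smul, LinearEquiv.symm_apply_eq]
      rfl
  right_inv y := by
    have e1 : X * ((nrd X)⁻¹ • star X) = 1 := q_mul_inv hX
    have e2 : star (qmap ρ ((nrd X)⁻¹ • star X)) * star (qmap ρ X) = 1 := by
      rw [← star_mul, ← qmap_mul, e1, qmap_one, star_one]
    have e3 : star (qmap ρ (qmap ρ ((nrd X)⁻¹ • star X))) * star (qmap ρ (qmap ρ X)) = 1 := by
      rw [← star_mul, ← qmap_mul, ← qmap_mul, e1, qmap_one, qmap_one, star_one]
    have e4 : ∀ z, pq I J (h.pqE.symm z) = z := fun z => h.pqE.apply_symm_apply z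
    ext1
    · change X * pq I J (h.pqE.symm (((nrd X)⁻¹ • star X) * y.fst *
        star (qmap ρ (qmap ρ ((nrd X)⁻¹ • star X))))) * star (qmap ρ (qmap ρ X)) = y.fst
      rw [e4, mul_assoc, mul_assoc, e3, mul_one, ← mul_assoc, e1, one_mul]
    · change t • (pq I J (t⁻¹ • h.pqE.symm (y.snd * star (qmap ρ ((nrd X)⁻¹ • star X)))) *
        star (qmap ρ X)) = y.snd
      rw [pq_smul, e4, smul_mul_assoc, smul_smul, mul_inv_cancel₀ ht, one_smul, mul_assoc, e2,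
        mul_one]
  map_add' x y := uF_add x y
  map_smul' r x := uF_smul r x

theorem uE_apply [NeZero (2 : O)] (h : HP (up O a1) (up O b1) I J) (hX : nrd X ≠ 0) (ht : t ≠ 0)
    (y : OctL O a1 b1 c1) : uE ρ c c1 h hX ht y = uF ρ c I J X t y := rfl

/-- Compatibility with the product. -/
theorem uF_tri (hρ : ∀ x, ρ (ρ (ρ x)) = x) (h : HP (up O a1) (up O b1) I J)
    (hI : qmap ρ I = I) (hJ : qmap ρ J = J)
    (hA : ((up O c : Oˣ) : O) * (ρ (ρ t) * ρ t) = ((up O c1 : Oˣ) : O) * ρ (nrd X))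
    (hB : ρ (ρ t) * nrd X = ρ (nrd X) * t) (hC : ρ t * ρ (ρ (nrd X)) = ρ (nrd X) * t)
    (x y : OctL O a1 b1 c1) :
    tri ρ (uF ρ c I J X t x) (uF ρ c I J X t y) = ρ (nrd X) • uF ρ c I J X t (tri ρ x y) := by
  have hqc : ∀ x : Qt (up O a) (up O b), qmap ρ (qmap ρ (qmap ρ x)) = x := fun x => by
    ext <;> simp [hρ]
  have t1 : qmap ρ (star (X * pq I J x.fst * star (qmap ρ (qmap ρ X)))) =
      X * (pq I J (qmap ρ (star x.fst)) * star (qmap ρ X)) := by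
    rw [star_mul, star_mul, star_star, qmap_mul, qmap_mul, hqc, qmap_star ρ X, ← h.pq_star,
      qmap_pq ρ hI hJ]
  have t2 : qmap ρ (qmap ρ (star (X * pq I J y.fst * star (qmap ρ (qmap ρ X))))) =
      qmap ρ X * (pq I J (qmap ρ (qmap ρ (star y.fst))) * star (qmap ρ (qmap ρ X))) := by
    rw [star_mul, star_mul, star_star, qmap_mul, qmap_mul, qmap_mul, qmap_mul, hqc, qmap_star ρ X,
      qmap_star ρ (qmap ρ X), ← h.pq_star, qmap_pq ρ hI hJ, qmap_pq ρ hI hJ]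
  have t3 : qmap ρ (t • (pq I J x.snd * star (qmap ρ X))) =
      ρ t • (pq I J (qmap ρ x.snd) * star (qmap ρ (qmap ρ X))) := by
    rw [qmap_smul, qmap_mul, qmap_star, qmap_pq ρ hI hJ]
  have t4 : qmap ρ (qmap ρ (t • (pq I J y.snd * star (qmap ρ X)))) =
      ρ (ρ t) • (pq I J (qmap ρ (qmap ρ y.snd)) * star X) := by
    rw [qmap_smul, qmap_smul, qmap_mul, qmap_mul, qmap_star, qmap_star, hqc, qmap_pq ρ hI hJ,
      qmap_pq ρ hI hJ]
  have n1 : star (qmap ρ X) * qmap ρ X = ρ (nrd X) • 1 := by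
    rw [← nrd_qmap, q_star_mul]
  apply Oct.ext
  · rw [fst_smul, fst_uF, fst_tri, fst_tri, fst_uF, fst_uF, snd_uF, snd_uF, t1, t2, t3, t4]
    have s1 : X * (pq I J (qmap ρ (star x.fst)) * star (qmap ρ X)) *
        (qmap ρ X * (pq I J (qmap ρ (qmap ρ (star y.fst))) * star (qmap ρ (qmap ρ X)))) =
        ρ (nrd X) • (X * (pq I J (qmap ρ (star x.fst)) * pq I J (qmap ρ (qmap ρ (star y.fst)))) *
          star (qmap ρ (qmap ρ X))) := by
      have e : X * (pq I J (qmap ρ (star x.fst)) * star (qmap ρ X)) *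
        (qmap ρ X * (pq I J (qmap ρ (qmap ρ (star y.fst))) * star (qmap ρ (qmap ρ X)))) =
        X * (pq I J (qmap ρ (star x.fst)) * ((star (qmap ρ X) * qmap ρ X) *
          (pq I J (qmap ρ (qmap ρ (star y.fst))) * star (qmap ρ (qmap ρ X))))) := by
        simp only [mul_assoc]
      rw [e, n1, smul_mul_assoc, one_mul, mul_smul_comm, mul_smul_comm]
      simp only [mul_assoc]
    have s2 : ((up O c : Oˣ) : O) •
        (star (ρ (ρ t) • (pq I J (qmap ρ (qmap ρ y.snd)) * star X)) *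
        (ρ t • (pq I J (qmap ρ x.snd) * star (qmap ρ (qmap ρ X))))) =
        ρ (nrd X) • (X * (((up O c1 : Oˣ) : O) •
          (star (pq I J (qmap ρ (qmap ρ y.snd))) * pq I J (qmap ρ x.snd))) *
          star (qmap ρ (qmap ρ X))) := by
      rw [QuaternionAlgebra.star_smul, star_mul, star_star, smul_mul_smul_comm, smul_smul, hA,
        mul_smul_comm, smul_mul_assoc, smul_smul, mul_comm (ρ (nrd X))]
      simp only [mul_assoc]
    rw [s1, s2, pq_add, pq_smul, h.pq_mul, h.pq_mul, h.pq_star, mul_add, add_mul, smul_add]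
  · rw [snd_smul, snd_uF, snd_tri, snd_tri, fst_uF, fst_uF, snd_uF, snd_uF, t1, t3, t4]
    have s1 : (ρ (ρ t) • (pq I J (qmap ρ (qmap ρ y.snd)) * star X)) *
        (X * (pq I J (qmap ρ (star x.fst)) * star (qmap ρ X))) =
        (ρ (nrd X) * t) • (pq I J (qmap ρ (qmap ρ y.snd)) * pq I J (qmap ρ (star x.fst)) *
          star (qmap ρ X)) := by
      have e : (pq I J (qmap ρ (qmap ρ y.snd)) * star X) *
        (X * (pq I J (qmap ρ (star x.fst)) * star (qmap ρ X))) =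
        pq I J (qmap ρ (qmap ρ y.snd)) * ((star X * X) *
          (pq I J (qmap ρ (star x.fst)) * star (qmap ρ X))) := by
        simp only [mul_assoc]
      rw [smul_mul_assoc, e, q_star_mul, smul_mul_assoc, one_mul, mul_smul_comm, smul_smul, hB]
      simp only [mul_assoc]
    have s2 : (ρ t • (pq I J (qmap ρ x.snd) * star (qmap ρ (qmap ρ X)))) *
        qmap ρ (qmap ρ (X * pq I J y.fst * star (qmap ρ (qmap ρ X)))) =
        (ρ (nrd X) * t) • (pq I J (qmap ρ x.snd) * pq I J (qmap ρ (qmap ρ y.fst)) *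
          star (qmap ρ X)) := by
      have e : (pq I J (qmap ρ x.snd) * star (qmap ρ (qmap ρ X))) *
        qmap ρ (qmap ρ (X * pq I J y.fst * star (qmap ρ (qmap ρ X)))) =
        pq I J (qmap ρ x.snd) * ((star (qmap ρ (qmap ρ X)) * qmap ρ (qmap ρ X)) *
          (pq I J (qmap ρ (qmap ρ y.fst)) * star (qmap ρ X))) := by
        rw [qmap_mul, qmap_mul, qmap_mul, qmap_mul, qmap_star, qmap_star, hqc, qmap_pq ρ hI hJ,
          qmap_pq ρ hI hJ]
        simp only [mul_assoc]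
      rw [smul_mul_assoc, e, q_star_mul, nrd_qmap, nrd_qmap, smul_mul_assoc, one_mul,
        mul_smul_comm, smul_smul, hC]
      simp only [mul_assoc]
    rw [s1, s2, pq_neg, neg_mul, smul_neg, smul_neg, smul_smul, pq_add, h.pq_mul, h.pq_mul,
      add_mul, smul_add]

/-- Compatibility with the norm. -/
theorem norm_uF [NeZero (2 : O)] (h : HP (up O a1) (up O b1) I J)
    (hN : ((up O c : Oˣ) : O) * (t ^ 2 * ρ (nrd X)) =
      ((up O c1 : Oˣ) : O) * (nrd X * ρ (ρ (nrd X)))) (x : OctL O a1 b1 c1) :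
    norm (uF ρ c I J X t x) = nrd X * ρ (ρ (nrd X)) * norm x := by
  simp only [Oct.norm, fst_uF, snd_uF, nrd_mul_q, nrd_smul_q, nrd_star_q, nrd_qmap, h.nrd_pq]
  linear_combination -(nrd x.snd) * hN

theorem bil_uF [NeZero (2 : O)] (h : HP (up O a1) (up O b1) I J)
    (hN : ((up O c : Oˣ) : O) * (t ^ 2 * ρ (nrd X)) =
      ((up O c1 : Oˣ) : O) * (nrd X * ρ (ρ (nrd X)))) (x y : OctL O a1 b1 c1) :
    bil (uF ρ c I J X t x) (uF ρ c I J X t y) = nrd X * ρ (ρ (nrd X)) * bil x y := by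
  rw [bil, bil, ← uF_add, norm_uF h hN, norm_uF h hN, norm_uF h hN]
  ring

/-- Compatibility with `J`. -/
theorem uF_Jq [NeZero (2 : O)] {α q q' q'' : O} (hj : HJ a ρ σ α q q' q'')
    (hI : qmap σ I = I) (hJ : qmap σ J = J) {lam : O}
    (hX : mq a b α q * qmap σ X = lam • X)
    (hT : q'' * (σ t * q * ρ lam) = lam * ρ (ρ lam) * t) (x : OctL O a1 b1 c1) :
    q'' • Jq σ α q q' (uF ρ c I J X t x) = (lam * ρ (ρ lam)) • uF ρ c I J X t (omap σ x) := by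
  have h1 : star (qmap σ X) * star (mq a b α q) = lam • star X := by
    rw [← star_mul, hX, QuaternionAlgebra.star_smul]
  have h2 : q'' • (star (qmap σ (qmap ρ (qmap ρ X))) * mq a b α (q * q')) =
      ρ (ρ lam) • star (qmap ρ (qmap ρ X)) := by
    have h3 : qmap ρ (qmap ρ (star (qmap σ X) * star (mq a b α q))) =
        qmap ρ (qmap ρ (lam • star X)) := by rw [h1]
    rw [qmap_mul, qmap_mul, hj.B, mul_smul_comm, qmap_smul, qmap_smul] at h3
    rw [qmap_star, qmap_star, qmap_star, qmap_star] at h3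
    rw [hj.qcomm, hj.qcomm]
    exact h3
  have h5 : star (qmap σ (qmap ρ X)) * (mq a b α q * star (mq a b α (q * q'))) =
      (q * ρ lam) • star (qmap ρ X) := by
    have h3 := congrArg (qmap ρ) h1
    rw [qmap_mul, qmap_smul, qmap_star, qmap_star ρ X] at h3
    have hH := hj.H (b := b)
    have hq : q * q * q' * q'' = q := by
      have := hj.N
      linear_combination q * this
    rw [← hH, mul_smul_comm, hj.qcomm, h3, smul_smul, hq]
  apply Oct.ext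
  · rw [fst_smul, fst_smul, fst_Jq, fst_uF, fst_uF, qmap_mul, qmap_mul, qmap_star,
      qmap_pq σ hI hJ]
    rw [show mq a b α q * (qmap σ X * pq I J (qmap σ x.fst) *
      star (qmap σ (qmap ρ (qmap ρ X)))) * mq a b α (q * q') =
      (mq a b α q * qmap σ X) * (pq I J (qmap σ x.fst) *
        (star (qmap σ (qmap ρ (qmap ρ X))) * mq a b α (q * q'))) by
      simp only [mul_assoc], ← mul_smul_comm, ← mul_smul_comm, h2, hX, smul_mul_assoc,
      mul_smul_comm, mul_smul_comm, smul_smul, mul_assoc]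
    rfl
  · rw [snd_smul, snd_smul, snd_Jq, snd_uF, snd_uF, qmap_smul, qmap_mul, qmap_star,
      qmap_pq σ hI hJ, smul_mul_assoc, mul_assoc, h5, mul_smul_comm, smul_smul, smul_smul,
      smul_smul, mul_assoc q'', ← mul_assoc (σ t), hT]
    rfl

theorem pq_mq (β r : O) : pq I J (mq a1 b1 β r) = el I β r 1 := by
  simp [pq, mq, el]

/-- Compatibility with the descent. -/
theorem uF_omap [NeZero (2 : O)] {β q q' q'' v : O} (hj : HJ a1 ρ τ β q q' q'')
    (h : HP (up O a1) (up O b1) I J) (hI : qmap ρ I = I) (hJ : qmap ρ J = J)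
    (hI' : qmap τ I = I) (hJ' : qmap τ J = J) (hv : v ≠ 0)
    (hX : qmap τ X = X * el I β (τ v) v⁻¹) (hq : v * τ v = q)
    (hT : τ t * ρ v⁻¹ = v⁻¹ * ρ (ρ v⁻¹) * q'' * t * q) (x : OctL O a1 b1 c1) :
    omap τ (uF ρ c I J X t x) = (v⁻¹ * ρ (ρ v⁻¹) * q'') • uF ρ c I J X t (Jq τ β q q' x) := by
  have hβ : β ≠ 0 := by
    intro h0
    have := hj.al
    rw [h0, mul_zero] at this
    exact (map_ne_zero (algebraMap k O)).2 a1.ne_zero this.symm
  have h1 : qmap τ X = v⁻¹ • (X * pq I J (mq a1 b1 β q)) := by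
    rw [hX, pq_mq, ← mul_smul_comm, el_smul, mul_one, ← hq, ← mul_assoc, inv_mul_cancel₀ hv,
      one_mul]
  have hc : ∀ y : Qt (up O a) (up O b), qmap τ (qmap ρ y) = qmap ρ (qmap τ y) := fun y => by
    ext <;> simp [hj.rs]
  have h2 : star (qmap τ (qmap ρ (qmap ρ X))) =
      (ρ (ρ v⁻¹) * q'') • (pq I J (mq a1 b1 β (q * q')) * star (qmap ρ (qmap ρ X))) := by
    have e := hj.B (b := b1)
    rw [hc, hc, h1, qmap_smul, qmap_smul, qmap_mul, qmap_mul, qmap_pq ρ hI hJ, qmap_pq ρ hI hJ,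
      QuaternionAlgebra.star_smul, star_mul, ← h.pq_star, ← qmap_star, ← qmap_star, e, pq_smul,
      smul_mul_assoc, smul_smul]
  have h3 : q • star (qmap τ (qmap ρ X)) = (ρ v⁻¹) •
      (pq I J (mq a1 b1 β q * star (mq a1 b1 β (q * q'))) * star (qmap ρ X)) := by
    have e := hj.H (b := b1)
    have hq : q * q * q' * q'' = q := by
      have := hj.N
      linear_combination q * this
    rw [hq] at e
    rw [hc, h1, qmap_smul, qmap_mul, qmap_pq ρ hI hJ, QuaternionAlgebra.star_smul, star_mul,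
      ← h.pq_star, ← qmap_star, smul_comm, ← smul_mul_assoc, ← pq_smul, e]
  apply Oct.ext
  · rw [fst_smul, fst_uF, fst_Jq]
    change qmap τ (X * pq I J x.fst * star (qmap ρ (qmap ρ X))) = _
    rw [qmap_mul, qmap_mul, qmap_star, qmap_pq τ hI' hJ', h2, h1, h.pq_mul, h.pq_mul,
      smul_mul_assoc, mul_smul_comm, smul_mul_assoc, smul_smul]
    simp only [mul_assoc]
    congr 1
    ring
  · have hq0 : q ≠ 0 := hj.q_ne
    rw [snd_smul, snd_uF, snd_Jq]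
    change qmap τ (t • (pq I J x.snd * star (qmap ρ X))) = _
    apply smul_right_injective _ hq0
    change q • _ = q • _
    rw [qmap_smul, qmap_mul, qmap_star, qmap_pq τ hI' hJ', smul_comm, ← mul_smul_comm, h3,
      mul_smul_comm, smul_smul, hT, h.pq_mul (qmap τ x.snd), smul_smul, smul_smul,
      mul_assoc (pq I J (qmap τ x.snd))]
    congr 1
    ring

theorem uF_t0 (x : OctL O a1 b1 c1) :
    uF ρ c I J X t (t0 O a1 b1 c1 x) = t0 O a b c (uF ρ c I J X t x) := by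
  apply Oct.ext
  · rfl
  · change t • (pq I J (-x.snd) * star (qmap ρ X)) = -(t • (pq I J x.snd * star (qmap ρ X)))
    rw [pq_neg, neg_mul, smul_neg]

theorem uF_zFun (h : HP (up O a1) (up O b1) I J) (hI : qmap ρ I = I) (hJ : qmap ρ J = J)
    {x w : Qt (up O a1) (up O b1)} {x' w' : Qt (up O a) (up O b)} (hx : x' * X = X * pq I J x)
    (hw : pq I J w = w') (g : O) (y : OctL O a1 b1 c1) :
    uF ρ c I J X t (zFun ρ x w g y) = zFun ρ x' w' g (uF ρ c I J X t y) := by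
  apply Oct.ext
  · have e : star (pq I J (qmap ρ (qmap ρ x))) * star (qmap ρ (qmap ρ X)) =
        star (qmap ρ (qmap ρ X)) * star (qmap ρ (qmap ρ x')) := by
      rw [← star_mul, ← star_mul, ← qmap_pq ρ hI hJ, ← qmap_pq ρ hI hJ, ← qmap_mul, ← qmap_mul,
        ← qmap_mul, ← qmap_mul, hx]
    rw [fst_uF, fst_zFun, fst_zFun, fst_uF, h.pq_mul, h.pq_mul, h.pq_star]
    rw [show X * (pq I J x * pq I J y.fst * star (pq I J (qmap ρ (qmap ρ x)))) *
      star (qmap ρ (qmap ρ X)) = (X * pq I J x) * (pq I J y.fst *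
        (star (pq I J (qmap ρ (qmap ρ x))) * star (qmap ρ (qmap ρ X)))) by
      simp only [mul_assoc], e, ← hx]
    simp only [mul_assoc]
  · have e : star (pq I J (qmap ρ x)) * star (qmap ρ X) =
        star (qmap ρ X) * star (qmap ρ x') := by
      rw [← star_mul, ← star_mul, ← qmap_pq ρ hI hJ, ← qmap_mul, ← qmap_mul, hx]
    rw [snd_uF, snd_zFun, snd_zFun, snd_uF, pq_smul, h.pq_mul, h.pq_mul, h.pq_star, hw,
      smul_mul_assoc, smul_comm t g, mul_smul_comm, smul_mul_assoc]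
    simp only [mul_assoc]
    rw [e]

/-- **The change of the quadratic field.** -/
theorem kcb [NeZero (2 : O)] (h3 : ∀ x, ρ (ρ (ρ x)) = x) (hσ : ∀ x, σ (σ x) = x)
    (hτ : ∀ x, τ (τ x) = x) (hσρ : ∀ x, σ (ρ x) = ρ (σ x)) (hτρ : ∀ x, τ (ρ x) = ρ (τ x))
    (hστ : ∀ x, σ (τ x) = τ (σ x))
    (hfix : ∀ x, ρ x = x → σ x = x → τ x = x → ∃ t : k, algebraMap k O t = x)
    {α : O} (hσα : σ α = -α) (hρα : ρ α = α) (hτα : τ α = α) (hα2 : α * α = algebraMap k O a)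
    {β : O} (hσβ : σ β = β) (hτβ : τ β = -β) (hρβ : ρ β = β) (hβ2 : β * β = algebraMap k O a1)
    {q : O} (hq : N3 ρ q = 1) (hσq : σ q = q) (hτq : τ q = q)
    {i1 j1 : Qt a b} (hi0 : i1.re = 0) (hj0 : j1.re = 0) (hi : nrd i1 = -a1) (hj : nrd j1 = -b1)
    (hij : j1 * i1 = -(i1 * j1))
    {p : Qt (up O a) (up O b)} (hp0 : p.re = 0) (hp : nrd p = -(β * β)) (hτp : qmap τ p = p)
    (hσp : mq a b α q * qmap σ p = p * mq a b α q) (c : kˣ) :
    ∃ (c1 : kˣ) (q1 : O) (u : OctL O a1 b1 c1 ≃ₗ[O] OctL O a b c) (e f s t : O),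
      e ≠ 0 ∧ f ≠ 0 ∧ s ≠ 0 ∧ t ≠ 0 ∧ N3 ρ q1 = 1 ∧ σ q1 = q1 ∧ τ q1 = q1 ∧
      (∀ x y, tri ρ (u x) (u y) = e • u (tri ρ x y)) ∧
      (∀ x y, bil (u x) (u y) = f * bil x y) ∧
      (∀ x, Jq σ α q (ρ q) (u x) = s • u (omap σ x)) ∧
      (∀ x, omap τ (u x) = t • u (Jq τ β q1 (ρ q1) x)) ∧
      (∀ x, u (t0 O a1 b1 c1 x) = t0 O a b c (u x)) ∧
      (∀ (r r' r0 r0' g : O) x,
        u (zFun ρ (r • 1 + r' • ⟨0, 1, 0, 0⟩) (r0 • 1 + r0' • ⟨0, 1, 0, 0⟩) g x) =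
          zFun ρ (r • 1 + r' • p) (r0 • 1 + r0' • qup O i1) g (u x)) := by
  have h2 : (2 : O) ≠ 0 := NeZero.ne 2
  have hα0 : α ≠ 0 := by
    intro h0
    rw [h0, mul_zero] at hα2
    exact (map_ne_zero (algebraMap k O)).2 a.ne_zero hα2.symm
  have hβ0 : β ≠ 0 := by
    intro h0
    rw [h0, mul_zero] at hβ2
    exact (map_ne_zero (algebraMap k O)).2 a1.ne_zero hβ2.symm
  have hi' : algebraMap k O (nrd i1) = -(β * β) := by
    rw [hi, map_neg, hβ2]
  have hj' : nrd j1 ≠ 0 := by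
    rw [hj]
    exact neg_ne_zero.2 b1.ne_zero
  obtain ⟨X, lam, v, s, hX0, hv, hs, hlam, hpX, hσX, hτX, hNv, hσv, hρs, hσs, hτs, hlq⟩ :=
    kca h3 hσ hτ hσρ hτρ hστ h2 hα0 hσα hρα hτα hα2 hβ0 hσβ hτβ hq hσq hτq hi0 hi' hj' hij hp0 hp
      hτp hσp
  have hII : i1 * i1 = (a1 : k) • (1 : Qt a b) := by
    have h := mul_star_self' i1
    rw [star_of_re hi0, mul_neg, hi, neg_smul, neg_inj] at h
    exact h
  have hJJ : j1 * j1 = (b1 : k) • (1 : Qt a b) := by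
    have h := mul_star_self' j1
    rw [star_of_re hj0, mul_neg, hj, neg_smul, neg_inj] at h
    exact h
  have hP : HP (up O a1) (up O b1) (qup O i1) (qup O j1) := by
    refine ⟨?_, ?_, ?_, ?_, ?_⟩
    · change algebraMap k O i1.re = 0
      rw [hi0, map_zero]
    · change algebraMap k O j1.re = 0
      rw [hj0, map_zero]
    · rw [← qup_mul, hII, qup_smul, qup_one]
      rfl
    · rw [← qup_mul, hJJ, qup_smul, qup_one]
      rfl
    · rw [← qup_mul, hij, ← qup_mul]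
      exact qup_neg _
  have hIm : ∀ g : O ≃ₐ[k] O, qmap g (qup O i1) = qup O i1 := fun g => by rw [qmap_qup]
  have hJm : ∀ g : O ≃ₐ[k] O, qmap g (qup O j1) = qup O j1 := fun g => by rw [qmap_qup]
  have hH : HJ a ρ σ α q (ρ q) (ρ (ρ q)) :=
    { al := hα2
      ra := hρα
      sa := hσα
      r0 := rfl
      r1 := rfl
      r2 := h3 q
      s0 := hσq
      N := hq
      rs := fun x => (hσρ x).symm
      r3 := h3
      s2 := hσ }
  have hH1 : HJ a1 ρ τ β (v * τ v) (ρ (v * τ v)) (ρ (ρ (v * τ v))) :=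
    { al := hβ2
      ra := hρβ
      sa := hτβ
      r0 := rfl
      r1 := rfl
      r2 := h3 _
      s0 := by rw [map_mul, hτ, mul_comm]
      N := hNv
      rs := fun x => (hτρ x).symm
      r3 := h3
      s2 := hτ }
  have hq0 : q ≠ 0 := hH.q_ne
  have hnI : nrd (qup O i1 : Qt (up O a) (up O b)) = -(β * β) := by
    rw [← hi']
    exact nrd_qup i1
  -- the norm of `X`
  obtain ⟨ξ, hξ⟩ : ∃ ξ, ξ = nrd X := ⟨_, rfl⟩
  have hξ0 : ξ ≠ 0 := by rwa [hξ]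
  have hσξ : q * σ ξ = lam ^ 2 * ξ := by
    have h := congrArg nrd hσX
    rwa [nrd_mul_q, nrd_mq hα2, nrd_qmap, nrd_smul_q, ← hξ] at h
  have hτξ : v * τ ξ = ξ * τ v := by
    have h := congrArg nrd hτX
    rw [nrd_mul_q, nrd_el h2 hβ0 hP.I0 hnI, nrd_qmap, ← hξ] at h
    rw [h]
    field_simp
  have hρξ0 : ρ ξ ≠ 0 := (map_ne_zero ρ).2 hξ0
  have hρρξ0 : ρ (ρ ξ) ≠ 0 := (map_ne_zero ρ).2 hρξ0
  have hρv0 : ρ v ≠ 0 := (map_ne_zero ρ).2 hv
  have hρρv0 : ρ (ρ v) ≠ 0 := (map_ne_zero ρ).2 hρv0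
  have hτv0 : τ v ≠ 0 := (map_ne_zero τ).2 hv
  have hρl0 : ρ lam ≠ 0 := (map_ne_zero ρ).2 hlam
  have hρρl0 : ρ (ρ lam) ≠ 0 := (map_ne_zero ρ).2 hρl0
  have hρσξ : ρ (ρ q) * ρ (ρ (σ ξ)) = ρ (ρ lam) ^ 2 * ρ (ρ ξ) := by
    rw [← map_mul, ← map_mul, hσξ, map_mul, map_mul, map_pow, map_pow]
  have hρτξ : ρ (ρ v) * ρ (ρ (τ ξ)) = ρ (ρ ξ) * ρ (ρ (τ v)) := by
    rw [← map_mul, ← map_mul, hτξ, map_mul, map_mul]
  obtain ⟨t, ht⟩ : ∃ t, t = ξ * ρ (ρ ξ) * s⁻¹ := ⟨_, rfl⟩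
  have ht0 : t ≠ 0 := by
    rw [ht]
    exact mul_ne_zero (mul_ne_zero hξ0 hρρξ0) (inv_ne_zero hs)
  have hρt : ρ t = ρ ξ * ξ * s⁻¹ := by
    rw [ht, map_mul, map_mul, map_inv₀, h3, hρs]
  have hρρt : ρ (ρ t) = ρ (ρ ξ) * ρ ξ * s⁻¹ := by
    rw [hρt, map_mul, map_mul, map_inv₀, hρs]
  -- the element `c₁`
  obtain ⟨ζ, hζ⟩ : ∃ ζ : k, algebraMap k O ζ = N3 ρ ξ * (s ^ 2)⁻¹ := by
    apply hfix
    · rw [map_mul, rho_N3 h3, map_inv₀, map_pow, hρs]
    · have e1 : N3 ρ (σ ξ) = N3 ρ lam ^ 2 * N3 ρ ξ := by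
        have h := congrArg (N3 ρ) hσξ
        rwa [N3_mul, hq, one_mul, N3_mul, sq, N3_mul, ← sq] at h
      have hNl : N3 ρ lam ≠ 0 := N3_ne hlam
      rw [map_mul, map_N3 hσρ, e1, map_inv₀, map_pow, hσs]
      field_simp
    · have e1 : N3 ρ v * N3 ρ (τ ξ) = N3 ρ ξ * N3 ρ (τ v) := by
        rw [← N3_mul, hτξ, N3_mul]
      have hNv0 : N3 ρ v ≠ 0 := N3_ne hv
      rw [N3_mul] at hNv
      have e2 : N3 ρ (τ ξ) * N3 ρ v ^ 2 = N3 ρ ξ := by
        linear_combination N3 ρ v * e1 + N3 ρ ξ * hNv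
      have hτs0 : τ s ≠ 0 := (map_ne_zero τ).2 hs
      rw [map_mul, map_N3 hτρ, map_inv₀, map_pow, ← e2]
      nth_rewrite 2 [← hτs]
      field_simp
  have hζ0 : ζ ≠ 0 := by
    rintro rfl
    rw [map_zero] at hζ
    exact mul_ne_zero (N3_ne hξ0) (inv_ne_zero (pow_ne_zero _ hs)) hζ.symm
  have hc1 : ((up O (Units.mk0 ζ hζ0 * c) : Oˣ) : O) =
      N3 ρ ξ * (s ^ 2)⁻¹ * ((up O c : Oˣ) : O) := by
    rw [← hζ]
    change algebraMap k O (ζ * c) = _
    rw [map_mul]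
    rfl
  have hA : ((up O c : Oˣ) : O) * (ρ (ρ t) * ρ t) =
      ((up O (Units.mk0 ζ hζ0 * c) : Oˣ) : O) * ρ (nrd X) := by
    rw [hc1, hρρt, hρt, ← hξ, N3]
    field_simp
  have hB : ρ (ρ t) * nrd X = ρ (nrd X) * t := by
    rw [hρρt, ← hξ, ht]
    ring
  have hC : ρ t * ρ (ρ (nrd X)) = ρ (nrd X) * t := by
    rw [hρt, ← hξ, ht]
    ring
  have hN : ((up O c : Oˣ) : O) * (t ^ 2 * ρ (nrd X)) =
      ((up O (Units.mk0 ζ hζ0 * c) : Oˣ) : O) * (nrd X * ρ (ρ (nrd X))) := by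
    rw [hc1, ht, ← hξ, N3]
    field_simp
  refine ⟨Units.mk0 ζ hζ0 * c, v * τ v, uE ρ c _ hP hX0 ht0, ρ (nrd X), nrd X * ρ (ρ (nrd X)),
    (ρ (ρ q))⁻¹ * (lam * ρ (ρ lam)), v⁻¹ * ρ (ρ v⁻¹) * ρ (ρ (v * τ v)), ?_, ?_, ?_, ?_, hNv, hσv,
    hH1.s0, ?_, ?_, ?_, ?_, ?_, ?_⟩
  · rw [← hξ]
    exact hρξ0
  · rw [← hξ]
    exact mul_ne_zero hξ0 hρρξ0
  · exact mul_ne_zero (inv_ne_zero hH.q2_ne) (mul_ne_zero hlam hρρl0)
  · exact mul_ne_zero (mul_ne_zero (inv_ne_zero hv)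
      ((map_ne_zero ρ).2 ((map_ne_zero ρ).2 (inv_ne_zero hv)))) hH1.q2_ne
  · intro x y
    exact uF_tri h3 hP (hIm ρ) (hJm ρ) hA hB hC x y
  · intro x y
    exact bil_uF hP hN x y
  · intro x
    have hT : ρ (ρ q) * (σ t * q * ρ lam) = lam * ρ (ρ lam) * t := by
      have hσt : σ t = σ ξ * ρ (ρ (σ ξ)) * (N3 ρ lam * s)⁻¹ := by
        rw [ht, map_mul, map_mul, map_inv₀, hσs, hσρ, hσρ]
      rw [hσt, ht, N3]
      have e : ρ (ρ q) * (σ ξ * ρ (ρ (σ ξ)) * (lam * ρ lam * ρ (ρ lam) * s)⁻¹ * q * ρ lam) =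
          (q * σ ξ) * (ρ (ρ q) * ρ (ρ (σ ξ))) * (lam * ρ lam * ρ (ρ lam) * s)⁻¹ * ρ lam := by
        ring
      rw [e, hσξ, hρσξ]
      field_simp
    have h := uF_Jq (c := c) (c1 := Units.mk0 ζ hζ0 * c) hH (hIm σ) (hJm σ) hσX hT x
    change Jq σ α q (ρ q) (uF ρ c (qup O i1) (qup O j1) X t x) =
      ((ρ (ρ q))⁻¹ * (lam * ρ (ρ lam))) • uF ρ c (qup O i1) (qup O j1) X t (omap σ x)
    rw [mul_smul, ← h, smul_smul, inv_mul_cancel₀ hH.q2_ne, one_smul]
  · intro x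
    have hT : τ t * ρ v⁻¹ = v⁻¹ * ρ (ρ v⁻¹) * ρ (ρ (v * τ v)) * t * (v * τ v) := by
      have hτt : τ t = τ ξ * ρ (ρ (τ ξ)) * (τ s)⁻¹ := by
        rw [ht, map_mul, map_mul, map_inv₀, hτρ, hτρ]
      have hτs0 : τ s ≠ 0 := (map_ne_zero τ).2 hs
      have e1 : τ ξ = ξ * τ v * v⁻¹ := by
        rw [← hτξ]
        field_simp
      have e2 : ρ (ρ (τ ξ)) = ρ (ρ ξ) * ρ (ρ (τ v)) * (ρ (ρ v))⁻¹ := by
        rw [← hρτξ]
        field_simp
      have e3 : s⁻¹ = (τ s)⁻¹ * (N3 ρ v)⁻¹ := by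
        rw [← mul_inv, hτs]
      rw [hτt, e2, e1, ht, e3, N3, map_inv₀, map_inv₀, map_mul, map_mul]
      field_simp
    exact uF_omap hH1 hP (hIm ρ) (hJm ρ) (hIm τ) (hJm τ) hv hτX rfl hT x
  · intro x
    exact uF_t0 x
  · intro r r' r0 r0' g x
    refine uF_zFun hP (hIm ρ) (hJm ρ) ?_ ?_ g x
    · rw [pq_add, pq_smul, pq_smul, pq_one, pq_gi, add_mul, mul_add, smul_mul_assoc,
        smul_mul_assoc, hpX, one_mul, mul_smul_comm, mul_smul_comm, mul_one]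
    · rw [pq_add, pq_smul, pq_smul, pq_one, pq_gi]

end uf

end Vale.Agent.P011.D4T.H67
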