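import Vale.Agent.P011.D4T.H67.KCa
import Vale.Agent.P011.D4T.H657.Zx

/-!
The change of the quadratic field: the maps between octonions.
-/

open Vale.Agent.P011.MPQ Vale.Agent.P011.D4 Vale.Agent.P011.D4.Oct Vale.Agent.P011.E6

namespace Vale.Agent.P011.D4T.H67

section pq

variable {F : Type} [Field F] {a b a1 b1 : Fˣ}

/-- The map of quaternion algebras given by `I` and `J`. -/
def pq (I J : Qt a b) (x : Qt a1 b1) : Qt a b :=
  x.re • (1 : Qt a b) + x.imI • I + x.imJ • J + x.imK • (I * J)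

/-- The relations for `I` and `J`. -/
structure HP (a1 b1 : Fˣ) (I J : Qt a b) : Prop where
  I0 : I.re = 0
  J0 : J.re = 0
  II : I * I = (a1 : F) • (1 : Qt a b)
  JJ : J * J = (b1 : F) • (1 : Qt a b)
  JI : J * I = -(I * J)

variable {I J : Qt a b}

theorem pq_add (x y : Qt a1 b1) : pq I J (x + y) = pq I J x + pq I J y := by
  simp only [pq, QuaternionAlgebra.re_add, QuaternionAlgebra.imI_add, QuaternionAlgebra.imJ_add,
    QuaternionAlgebra.imK_add]
  module

theorem pq_smul (t : F) (x : Qt a1 b1) : pq I J (t • x) = t • pq I J x := by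
  simp only [pq, QuaternionAlgebra.re_smul, QuaternionAlgebra.imI_smul,
    QuaternionAlgebra.imJ_smul, QuaternionAlgebra.imK_smul, smul_eq_mul]
  module

theorem pq_one : pq I J (1 : Qt a1 b1) = 1 := by
  simp [pq]

theorem pq_gi : pq I J (⟨0, 1, 0, 0⟩ : Qt a1 b1) = I := by
  simp [pq]

theorem pq_neg (x : Qt a1 b1) : pq I J (-x) = -pq I J x := by
  rw [← neg_one_smul F x, pq_smul, neg_one_smul]

namespace HP

variable (h : HP a1 b1 I J)
include h

theorem I_IJ : I * (I * J) = (a1 : F) • J := by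
  rw [← mul_assoc, h.II, smul_mul_assoc, one_mul]

theorem J_IJ : J * (I * J) = (-b1 : F) • I := by
  rw [← mul_assoc, h.JI, neg_mul, mul_assoc, h.JJ, mul_smul_comm, mul_one, neg_smul]

theorem IJ_I : (I * J) * I = (-a1 : F) • J := by
  rw [mul_assoc, h.JI, mul_neg, h.I_IJ, neg_smul]

theorem IJ_J : (I * J) * J = (b1 : F) • I := by
  rw [mul_assoc, h.JJ, mul_smul_comm, mul_one]

theorem IJ_IJ : (I * J) * (I * J) = (-(a1 * b1) : F) • (1 : Qt a b) := by
  rw [← mul_assoc, h.IJ_I, smul_mul_assoc, h.JJ, smul_smul, neg_mul]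

theorem pq_mul (x y : Qt a1 b1) : pq I J (x * y) = pq I J x * pq I J y := by
  simp only [pq, mul_add, add_mul, smul_mul_assoc, mul_smul_comm, one_mul, mul_one, h.II,
    h.JJ, h.JI, h.I_IJ, h.J_IJ, h.IJ_I, h.IJ_J, h.IJ_IJ, QuaternionAlgebra.re_mul,
    QuaternionAlgebra.imI_mul, QuaternionAlgebra.imJ_mul, QuaternionAlgebra.imK_mul]
  module

theorem star_I : star I = -I := star_of_re h.I0

theorem star_J : star J = -J := star_of_re h.J0

theorem star_IJ : star (I * J) = -(I * J) := by
  rw [star_mul, h.star_I, h.star_J, neg_mul_neg, h.JI]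

theorem pq_star (x : Qt a1 b1) : pq I J (star x) = star (pq I J x) := by
  simp only [pq, star_add, QuaternionAlgebra.star_smul, star_one, h.star_I, h.star_J, h.star_IJ,
    QuaternionAlgebra.re_star, QuaternionAlgebra.imI_star,
    QuaternionAlgebra.imJ_star, QuaternionAlgebra.imK_star]
  module

theorem re_IJ [NeZero (2 : F)] : (I * J).re = 0 := by
  have h1 := congrArg QuaternionAlgebra.re h.star_IJ
  rw [QuaternionAlgebra.re_star, QuaternionAlgebra.re_neg] at h1
  have h2 : (2 : F) * (I * J).re = 0 := by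
    simp only [zero_mul, add_zero] at h1
    linear_combination h1
  exact (mul_eq_zero.1 h2).resolve_left (NeZero.ne 2)

theorem re_pq [NeZero (2 : F)] (x : Qt a1 b1) : (pq I J x).re = x.re := by
  simp only [pq, QuaternionAlgebra.re_add, QuaternionAlgebra.re_smul, QuaternionAlgebra.re_one,
    h.I0, h.J0, h.re_IJ, smul_eq_mul, mul_zero, add_zero, mul_one]

theorem nrd_pq [NeZero (2 : F)] (x : Qt a1 b1) : nrd (pq I J x) = nrd x := by
  have h1 := q_mul_star (pq I J x)
  rw [← h.pq_star, ← h.pq_mul, q_mul_star, pq_smul, pq_one] at h1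
  have h2 := congrArg QuaternionAlgebra.re h1
  simpa using h2.symm

theorem pq_inj [NeZero (2 : F)] : Function.Injective (pq I J : Qt a1 b1 → Qt a b) := by
  intro x y hxy
  have key : ∀ z : Qt a1 b1, (x * z).re = (y * z).re := by
    intro z
    rw [← h.re_pq, ← h.re_pq, h.pq_mul, h.pq_mul, hxy]
  have h0 := key 1
  have h1 := key ⟨0, 1, 0, 0⟩
  have h2 := key ⟨0, 0, 1, 0⟩
  have h3 := key ⟨0, 0, 0, 1⟩
  have ha := a1.ne_zero
  have hb := b1.ne_zero
  simp at h0 h1 h2 h3
  ext
  · exact h0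
  · simpa using h1
  · simpa using h2
  · simpa using h3

/-- The isomorphism of quaternion algebras given by `I` and `J`. -/
noncomputable def pqE [NeZero (2 : F)] : Qt a1 b1 ≃ₗ[F] Qt a b :=
  LinearMap.linearEquivOfInjective
    { toFun := pq I J
      map_add' := pq_add
      map_smul' := pq_smul } h.pq_inj (by
    rw [QuaternionAlgebra.finrank_eq_four, QuaternionAlgebra.finrank_eq_four])

theorem pqE_apply [NeZero (2 : F)] (x : Qt a1 b1) : h.pqE x = pq I J x := rfl

end HP

end pq

end Vale.Agent.P011.D4T.H67
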